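import Vale.Agent.P220.R2.H57S.Desc

/-!
# The cotangent bundle of a quotient of the sphere
-/

open Set Filter Topology
open scoped ContDiff

set_option linter.unusedSectionVars false

namespace Vale.Agent.P220.R2.H57Q

open H57 H180 H57S

variable {E : Type} [NormedAddCommGroup E] [InnerProductSpace ℝ E] [FiniteDimensional ℝ E]
  {E' : Type} [NormedAddCommGroup E'] [InnerProductSpace ℝ E'] [FiniteDimensional ℝ E']

/-- `P` restricts to a smooth submersion of the unit sphere onto `Q` whose fibres are the orbits of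
the isometries in `Γ`. -/
structure IsQuot (Q : Set E') (P : E → E') (Γ : Set (E ≃ₗᵢ[ℝ] E)) : Prop where
  /-- smooth -/
  smooth : ContDiff ℝ ∞ P
  /-- from the sphere to `Q` -/
  maps : ∀ q : E, ‖q‖ = 1 → P q ∈ Q
  /-- onto -/
  surj : ∀ y ∈ Q, ∃ q : E, ‖q‖ = 1 ∧ P q = y
  /-- a submersion of the sphere -/
  sub : ∀ q : E, ‖q‖ = 1 → ∀ v ∈ Tan Q (P q), ∃ u : E, inner ℝ q u = (0 : ℝ) ∧ fderiv ℝ P q u = v
  /-- two points over the same point differ by an element of `Γ` -/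
  deck : ∀ x y : E, ‖x‖ = 1 → ‖y‖ = 1 → P x = P y → ∃ g ∈ Γ, g x = y
  /-- the elements of `Γ` preserve the fibres -/
  inv : ∀ g ∈ Γ, ∀ x : E, ‖x‖ = 1 → P (g x) = P x

/-- the symmetric operator on the covectors of `Q` -/
noncomputable def bm (P : E → E') (r : E' → E') (q : E) : E' →L[ℝ] E' :=
  LinearMap.toContinuousLinearMap
    { toFun := fun v => fderiv ℝ P q (pb P (q, v)) + (v - fderiv ℝ r (P q) v)
      map_add' := fun v w => by
        rw [pb_add, map_add, map_add]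
        abel
      map_smul' := fun a v => by
        simp only [RingHom.id_apply]
        rw [pb_smul, map_smul, map_smul, smul_add, smul_sub] }

section

variable {P : E → E'} {r : E' → E'}

theorem bm_apply (q : E) (v : E') :
    bm P r q v = fderiv ℝ P q (pb P (q, v)) + (v - fderiv ℝ r (P q) v) := rfl

theorem bm_smooth (hP : ContDiff ℝ ∞ P) (hr : ContDiff ℝ ∞ r) : ContDiff ℝ ∞ (bm P r) := by
  rw [contDiff_clm_apply_iff]
  intro v
  have h1 : ContDiff ℝ ∞ (fderiv ℝ P) := hP.fderiv_right (m := ∞) (by simp)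
  have h2 : ContDiff ℝ ∞ (fderiv ℝ r) := hr.fderiv_right (m := ∞) (by simp)
  have h3 : ContDiff ℝ ∞ fun q : E => fderiv ℝ P q (pb P (q, v)) :=
    h1.clm_apply ((pb_smooth hP).comp (contDiff_id.prodMk contDiff_const))
  exact h3.add (contDiff_const.sub ((h2.comp hP).clm_apply contDiff_const))

end

/-- the map of the cotangent bundles -/
noncomputable def TQ (P : E → E') (r : E' → E') (z : E × E) : E' × E' :=
  (P z.1, (bm P r z.1).inverse (fderiv ℝ P z.1 z.2))

namespace IsQuot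

variable {Q : Set E'} {P : E → E'} {Γ : Set (E ≃ₗᵢ[ℝ] E)} (hc : IsQuot Q P Γ)

include hc

/-- the tangent space of `Q` -/
theorem tan_Q {q : E} (hq : ‖q‖ = 1) {v : E'} :
    v ∈ Tan Q (P q) ↔ ∃ u, inner ℝ q u = (0 : ℝ) ∧ fderiv ℝ P q u = v := by
  constructor
  · exact hc.sub q hq v
  · rintro ⟨u, hu, rfl⟩
    obtain ⟨c, h1, h2, -, h3, h4⟩ := curve_sph hq hu
    refine ⟨fun t => P (c t), hc.smooth.comp h1, fun t => hc.maps _ (mem_Sph.1 (h2 t)), by
      beta_reduce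
      rw [h3], ?_⟩
    have h5 : HasFDerivAt P (fderiv ℝ P q) (c 0) := by
      rw [h3]
      exact (hc.smooth.differentiable (by simp) q).hasFDerivAt
    exact (h5.comp_hasDerivAt 0 h4).deriv

variable {U : Set E'} {r : E' → E'} (hr : IsRet Q U r)

include hr

theorem tan_mem {q : E} (hq : ‖q‖ = 1) {v : E'} :
    v ∈ Tan Q (P q) ↔ fderiv ℝ r (P q) v = v := hr.mem_Tan (hc.maps q hq)

theorem dP_fix {q u : E} (hq : ‖q‖ = 1) (hu : inner ℝ q u = (0 : ℝ)) :
    fderiv ℝ r (P q) (fderiv ℝ P q u) = fderiv ℝ P q u :=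
  (hc.tan_mem hr hq).1 ((hc.tan_Q hq).2 ⟨u, hu, rfl⟩)

theorem bm_fix {q : E} (hq : ‖q‖ = 1) {v : E'} (h : fderiv ℝ r (P q) (bm P r q v) = bm P r q v) :
    fderiv ℝ r (P q) v = v ∧ fderiv ℝ P q (pb P (q, v)) = bm P r q v := by
  have h1 := hc.dP_fix hr hq (in_pb (P := P) hq v)
  have h2 := hr.fderiv_fderiv (hc.maps q hq) v
  rw [bm_apply, map_add, map_sub, h1, h2, sub_self, add_zero] at h
  have h3 : v - fderiv ℝ r (P q) v = 0 := by
    rw [left_eq_add] at h
    exact h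
  refine ⟨(sub_eq_zero.1 h3).symm, ?_⟩
  rw [bm_apply, h3, add_zero]

theorem bm_inj {q : E} (hq : ‖q‖ = 1) {v : E'} (h : bm P r q v = 0) : v = 0 := by
  obtain ⟨h1, h2⟩ := hc.bm_fix hr hq (v := v) (by rw [h, map_zero])
  rw [h] at h2
  have h3 := inner_pb (P := P) q (pb P (q, v)) v
  rw [pr_of_orth (in_pb hq v), h2, inner_zero_right, real_inner_self_eq_norm_sq] at h3
  have h4 : pb P (q, v) = 0 := norm_eq_zero.1 (pow_eq_zero_iff (two_ne_zero)|>.1 h3)
  obtain ⟨u, hu, hu2⟩ := hc.sub q hq v ((hc.tan_mem hr hq).2 h1)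
  have h5 := inner_pb (P := P) q u v
  rw [pr_of_orth hu, hu2, h4, inner_zero_left, real_inner_self_eq_norm_sq] at h5
  exact norm_eq_zero.1 (pow_eq_zero_iff (two_ne_zero)|>.1 h5.symm)

theorem bm_det {q : E} (hq : ‖q‖ = 1) : (bm P r q).det ≠ 0 := by
  refine H64.det_ne_zero_of_injective ?_
  intro a b hab
  have h1 : bm P r q (a - b) = 0 := by
    rw [map_sub]
    exact sub_eq_zero.2 hab
  exact sub_eq_zero.1 (hc.bm_inj hr hq h1)

theorem bm_inverse {q : E} (hq : ‖q‖ = 1) (v : E') : (bm P r q).inverse (bm P r q v) = v := by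
  have h1 : (((bm P r q).toContinuousLinearEquivOfDetNeZero (hc.bm_det hr hq) : E' ≃L[ℝ] E') :
      E' →L[ℝ] E') = bm P r q := ContinuousLinearMap.coe_toContinuousLinearEquivOfDetNeZero _ _
  rw [← h1, ContinuousLinearMap.inverse_equiv]
  exact ContinuousLinearEquiv.symm_apply_apply _ v

theorem bm_surj {q : E} (hq : ‖q‖ = 1) (p : E') : ∃ v, bm P r q v = p := by
  have h1 : (((bm P r q).toContinuousLinearEquivOfDetNeZero (hc.bm_det hr hq) : E' ≃L[ℝ] E') :
      E' →L[ℝ] E') = bm P r q := ContinuousLinearMap.coe_toContinuousLinearEquivOfDetNeZero _ _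
  refine ⟨((bm P r q).toContinuousLinearEquivOfDetNeZero (hc.bm_det hr hq)).symm p, ?_⟩
  have h2 := congrArg (fun C : E' →L[ℝ] E' =>
    C (((bm P r q).toContinuousLinearEquivOfDetNeZero (hc.bm_det hr hq)).symm p)) h1
  exact h2.symm.trans (ContinuousLinearEquiv.apply_symm_apply _ p)

theorem TQ_smooth {z : E × E} (hz : (bm P r z.1).det ≠ 0) : ContDiffAt ℝ ∞ (TQ P r) z := by
  have : CompleteSpace E' := FiniteDimensional.complete ℝ E'
  have h1 : (((bm P r z.1).toContinuousLinearEquivOfDetNeZero hz : E' ≃L[ℝ] E') : E' →L[ℝ] E') =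
      bm P r z.1 := ContinuousLinearMap.coe_toContinuousLinearEquivOfDetNeZero _ _
  have h2 : ContDiffAt ℝ ∞ ContinuousLinearMap.inverse (bm P r z.1) := by
    rw [← h1]
    exact contDiffAt_map_inverse _
  have hb : ContDiffAt ℝ ∞ (fun z : E × E => bm P r z.1) z :=
    (bm_smooth hc.smooth hr.smooth).contDiffAt.comp z contDiffAt_fst
  have h3 : ContDiffAt ℝ ∞ (fun z : E × E => (bm P r z.1).inverse) z :=
    ContDiffAt.comp (g := ContinuousLinearMap.inverse) z h2 hb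
  have h4 : ContDiff ℝ ∞ (fderiv ℝ P) := hc.smooth.fderiv_right (m := ∞) (by simp)
  have h5 : ContDiff ℝ ∞ fun z : E × E => fderiv ℝ P z.1 z.2 :=
    (h4.comp contDiff_fst).clm_apply contDiff_snd
  exact (hc.smooth.contDiffAt.comp z contDiffAt_fst).prodMk (h3.clm_apply h5.contDiffAt)

theorem isOpen_det : IsOpen {z : E × E | (bm P r z.1).det ≠ 0} := by
  have h1 : Continuous fun z : E × E => (bm P r z.1).det :=
    ContinuousLinearMap.continuous_det.comp
      ((bm_smooth hc.smooth hr.smooth).continuous.comp continuous_fst)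
  exact isOpen_ne_fun h1 continuous_const

theorem TQ_pb {q : E} (hq : ‖q‖ = 1) {w : E'} (hw : w ∈ Tan Q (P q)) :
    TQ P r (q, pb P (q, w)) = (P q, w) := by
  have h1 : bm P r q w = fderiv ℝ P q (pb P (q, w)) := by
    rw [bm_apply, (hc.tan_mem hr hq).1 hw, sub_self, add_zero]
  show (P q, (bm P r q).inverse (fderiv ℝ P q (pb P (q, w)))) = _
  rw [← h1, hc.bm_inverse hr hq]

/-- the points of vanishing moment -/
theorem TQ_spec {z : E × E} (h1 : ‖z.1‖ = 1) (h2 : inner ℝ z.1 z.2 = (0 : ℝ))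
    (h3 : ∀ v : E, inner ℝ z.1 v = (0 : ℝ) → fderiv ℝ P z.1 v = 0 → inner ℝ z.2 v = (0 : ℝ)) :
    (TQ P r z).2 ∈ Tan Q (P z.1) ∧ pb P (z.1, (TQ P r z).2) = z.2 := by
  obtain ⟨w, hw⟩ := hc.bm_surj hr h1 (fderiv ℝ P z.1 z.2)
  have h4 : (TQ P r z).2 = w := by
    show (bm P r z.1).inverse (fderiv ℝ P z.1 z.2) = w
    rw [← hw, hc.bm_inverse hr h1]
  obtain ⟨h5, h6⟩ := hc.bm_fix hr h1 (v := w) (by rw [hw]; exact hc.dP_fix hr h1 h2)
  rw [h4]
  refine ⟨(hc.tan_mem hr h1).2 h5, ?_⟩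
  rw [hw] at h6
  set d : E := pb P (z.1, w) - z.2 with hd
  have h7 : inner ℝ z.1 d = (0 : ℝ) := by rw [hd, inner_sub_right, in_pb h1, h2, sub_zero]
  have h8 : fderiv ℝ P z.1 d = 0 := by rw [hd, map_sub, h6, sub_self]
  have h9 : inner ℝ (pb P (z.1, w)) d = (0 : ℝ) := by
    rw [inner_pb, pr_of_orth h7, h8, inner_zero_right]
  have h10 : inner ℝ d d = (0 : ℝ) := by
    conv_lhs => rw [hd]
    rw [inner_sub_left, h9, h3 d h7 h8, sub_zero]
  exact sub_eq_zero.1 (inner_self_eq_zero.1 h10)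

end IsQuot

end Vale.Agent.P220.R2.H57Q
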