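import Vale.Agent.P220.R2.H57Q.Lift

/-!
# Equivariant isotopies of the sphere descend to Hamiltonian isotopies of quotients
-/

open Set Filter Topology
open scoped ContDiff

set_option linter.unusedSectionVars false

namespace Vale.Agent.P220.R2.H57Q

open H57 H180 H57S

variable {E : Type} [NormedAddCommGroup E] [InnerProductSpace ℝ E] [FiniteDimensional ℝ E]
  {E' : Type} [NormedAddCommGroup E'] [InnerProductSpace ℝ E'] [FiniteDimensional ℝ E']

namespace IsQuot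

variable {n m : ℕ} {Q : Set E'} {P : E → E'} {Γ : Set (E ≃ₗᵢ[ℝ] E)} (hc : IsQuot Q P Γ)
  {L : Set (E' × E')} {U : Set E'} {r : E' → E'}

include hc

theorem dP_g {g : E ≃ₗᵢ[ℝ] E} (hg : g ∈ Γ) {q v : E} (hq : ‖q‖ = 1) (hv : inner ℝ q v = (0 : ℝ)) :
    fderiv ℝ P (g q) (g v) = fderiv ℝ P q v := by
  obtain ⟨c, h1, h2, -, h3, h4⟩ := curve_sph hq hv
  have d1 : HasDerivAt (fun t => P (c t)) (fderiv ℝ P q v) 0 := by
    have h5 : HasFDerivAt P (fderiv ℝ P q) (c 0) := by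
      rw [h3]
      exact (hc.smooth.differentiable (by simp) q).hasFDerivAt
    exact h5.comp_hasDerivAt 0 h4
  have d2 : HasDerivAt (fun t => P (g (c t))) (fderiv ℝ P (g q) (g v)) 0 := by
    have h5 : HasFDerivAt P (fderiv ℝ P (g q)) (g (c 0)) := by
      rw [h3]
      exact (hc.smooth.differentiable (by simp) (g q)).hasFDerivAt
    have h6 : HasDerivAt (fun t => g (c t)) (g v) 0 :=
      ((g : E ≃L[ℝ] E) : E →L[ℝ] E).hasFDerivAt.comp_hasDerivAt 0 h4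
    exact h5.comp_hasDerivAt 0 h6
  have h5 : (fun t => P (g (c t))) = fun t => P (c t) := funext fun t =>
    hc.inv g hg _ (mem_Sph.1 (h2 t))
  rw [h5] at d2
  exact d2.unique d1

theorem pb_g {g : E ≃ₗᵢ[ℝ] E} (hg : g ∈ Γ) {q : E} (hq : ‖q‖ = 1) (p : E') :
    pb P (g q, p) = g (pb P (q, p)) := by
  refine ext_inner_right ℝ fun v => ?_
  obtain ⟨u, rfl⟩ := g.surjective v
  rw [inner_pb, pr_g, hc.dP_g hg hq (in_pr hq u), LinearIsometryEquiv.inner_map_map, inner_pb]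

theorem TQ_g (hr : IsRet Q U r) {g : E ≃ₗᵢ[ℝ] E} (hg : g ∈ Γ) {z : E × E} (h1 : ‖z.1‖ = 1)
    (h2 : (TQ P r z).2 ∈ Tan Q (P z.1)) (h3 : pb P (z.1, (TQ P r z).2) = z.2) :
    TQ P r (g z.1, g z.2) = TQ P r z := by
  have h4 : ‖g z.1‖ = 1 := by rw [LinearIsometryEquiv.norm_map, h1]
  have h5 := hc.inv g hg _ h1
  have h6 : TQ P r (g z.1, pb P (g z.1, (TQ P r z).2)) = (P (g z.1), (TQ P r z).2) :=
    hc.TQ_pb hr h4 (by rw [h5]; exact h2)
  rw [hc.pb_g hg h1, h3, h5] at h6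
  rw [h6]
  rfl

theorem TQ_eq {z z' : E × E} (h1 : ‖z.1‖ = 1) (h2 : pb P (z.1, (TQ P r z).2) = z.2)
    (h1' : ‖z'.1‖ = 1) (h2' : pb P (z'.1, (TQ P r z').2) = z'.2) (h : TQ P r z = TQ P r z') :
    ∃ g ∈ Γ, (g z.1, g z.2) = z' := by
  obtain ⟨g, hg, hgz⟩ := hc.deck z.1 z'.1 h1 h1' (congrArg Prod.fst h)
  refine ⟨g, hg, Prod.ext hgz ?_⟩
  show g z.2 = z'.2
  rw [← h2, ← h2', ← h, ← hgz, hc.pb_g hg h1]

/-- a curve in the fibre with a given velocity -/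
theorem fibre_curve (hk : ∀ q : E, ‖q‖ = 1 → HasKappa n m Q P q) {x ν : E} (hx : ‖x‖ = 1)
    (h1 : inner ℝ x ν = (0 : ℝ)) (h2 : fderiv ℝ P x ν = 0) :
    ∃ c : ℝ → E, ContDiffAt ℝ ∞ c 0 ∧ c 0 = x ∧ HasDerivAt c ν 0 ∧
      ∀ᶠ t in 𝓝 (0 : ℝ), ‖c t‖ = 1 ∧ P (c t) = P x := by
  obtain ⟨V, π, κ, O, hdV, hπ, hV, hOo, hO0, hκs, hκ1, hκ2⟩ := hk x hx
  have hνV : ν ∈ V := (hV ν).2 ⟨h1, h2⟩
  set l : ℝ → V × E' := fun t => (π x + t • (⟨ν, hνV⟩ : V), P x) with hl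
  have hls : ContDiff ℝ ∞ l :=
    (contDiff_const.add (contDiff_id.smul contDiff_const)).prodMk contDiff_const
  have hl0 : l 0 = (π x, P x) := by simp [hl]
  have hcs : ContDiffAt ℝ ∞ (fun t => κ (l t)) 0 := by
    refine ContDiffAt.comp 0 ?_ hls.contDiffAt
    rw [hl0]
    exact hκs.contDiffAt (hOo.mem_nhds hO0)
  have hev : ∀ᶠ t in 𝓝 (0 : ℝ), l t ∈ O :=
    (hls.continuous.tendsto 0).eventually (by rw [hl0]; exact hOo.mem_nhds hO0)
  have hQ : P x ∈ Q := hc.maps x hx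
  have hc0 : κ (l 0) = x := by
    rw [hl0]
    exact hκ2.self_of_nhds hx
  obtain ⟨d, hd⟩ : ∃ d, HasDerivAt (fun t => κ (l t)) d 0 :=
    ⟨_, (hcs.differentiableAt (by simp)).hasDerivAt⟩
  have e1 : fderiv ℝ P x d = 0 := by
    have h3 : HasFDerivAt P (fderiv ℝ P x) (κ (l 0)) := by
      rw [hc0]
      exact (hc.smooth.differentiable (by simp) x).hasFDerivAt
    have h4 : HasDerivAt (fun t => P (κ (l t))) (fderiv ℝ P x d) 0 := h3.comp_hasDerivAt 0 hd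
    refine h4.unique ((hasDerivAt_const (0 : ℝ) (P x)).congr_of_eventuallyEq ?_)
    filter_upwards [hev] with t ht
    exact (hκ1 _ ht hQ).2.1
  have e2 : inner ℝ x d = (0 : ℝ) := by
    have h3 := hd.inner ℝ hd
    have h4 := h3.unique ((hasDerivAt_const (0 : ℝ) (1 : ℝ)).congr_of_eventuallyEq (by
      filter_upwards [hev] with t ht
      rw [real_inner_self_eq_norm_sq, (hκ1 _ ht hQ).1]
      norm_num))
    rw [hc0, real_inner_comm x d] at h4
    linarith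
  have e3 : d = ν := by
    have h3 : HasDerivAt (fun t => π (κ (l t))) (π d) 0 := π.hasFDerivAt.comp_hasDerivAt 0 hd
    have h4 : HasDerivAt (fun t : ℝ => π x + t • (⟨ν, hνV⟩ : V)) (⟨ν, hνV⟩ : V) 0 := by
      simpa using ((hasDerivAt_id (0 : ℝ)).smul_const (⟨ν, hνV⟩ : V)).const_add (π x)
    have h5 : π d = (⟨ν, hνV⟩ : V) := by
      refine h3.unique (h4.congr_of_eventuallyEq ?_)
      filter_upwards [hev] with t ht
      exact (hκ1 _ ht hQ).2.2
    have h6 : d ∈ V := (hV d).2 ⟨e2, e1⟩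
    have h7 := hπ ⟨d, h6⟩
    rw [h5] at h7
    exact (congrArg Subtype.val h7).symm
  rw [e3] at hd
  refine ⟨fun t => κ (l t), hcs, hc0, hd, ?_⟩
  filter_upwards [hev] with t ht
  exact ⟨(hκ1 _ ht hQ).1, (hκ1 _ ht hQ).2.1⟩

/-- **Equivariant exact isotopies descend.** -/
theorem descent (hk : ∀ q : E, ‖q‖ = 1 → HasKappa n m Q P q) (hQ : IsClosedManifold m Q)
    (hL : L ⊆ Cot Q) {ι : ℝ × (E × E) → E × E} {f : ℝ × (E × E) → ℝ}
    (hs : SphIso Γ (lift P L) ι f)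
    (hor : ∀ s, ∀ q v : E, ‖q‖ = 1 → inner ℝ (ι (s, (q, 0))).1 v = (0 : ℝ) →
      fderiv ℝ P (ι (s, (q, 0))).1 v = 0 → inner ℝ (ι (s, (q, 0))).2 v = (0 : ℝ)) :
    HamIsotopicToZero Q L := by
  classical
  obtain ⟨UQ, r, hr, -⟩ := exists_ret hQ.sub hQ.compact
  -- the isotopy has vanishing moment
  have hmom : ∀ s, ∀ q : E, ‖q‖ = 1 → (TQ P r (ι (s, (q, 0)))).2 ∈ Tan Q (P (ι (s, (q, 0))).1) ∧
      pb P ((ι (s, (q, 0))).1, (TQ P r (ι (s, (q, 0)))).2) = (ι (s, (q, 0))).2 := fun s q hq =>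
    hc.TQ_spec hr (hs.norm s q hq) (hs.orth s q hq) fun v hv1 hv2 => hor s q v hq hv1 hv2
  have hKcl : IsClosed {x : ℝ × (E' × E') | x.2.1 ∈ Q ∧ x.2.2 = 0} :=
    (hQ.compact.isClosed.preimage (by fun_prop)).inter
      (isClosed_eq (by fun_prop) continuous_const)
  have hex : ∀ y : E', ∃ q : E, y ∈ Q → ‖q‖ = 1 ∧ P q = y := by
    intro y
    by_cases hy : y ∈ Q
    · obtain ⟨q, hq⟩ := hc.surj y hy
      exact ⟨q, fun _ => hq⟩
    · exact ⟨0, fun h => absurd h hy⟩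
  choose qq hqq using hex
  -- the two maps are well defined
  have hwell : ∀ s, ∀ q q' : E, ‖q‖ = 1 → ‖q'‖ = 1 → P q = P q' →
      TQ P r (ι (s, (q, 0))) = TQ P r (ι (s, (q', 0))) ∧ f (s, (q, 0)) = f (s, (q', 0)) := by
    intro s q q' hq hq' h
    obtain ⟨g, hg, rfl⟩ := hc.deck q q' hq hq' h
    refine ⟨?_, (hs.eqf g hg s q hq).symm⟩
    rw [hs.eqv g hg s q hq, hc.TQ_g hr hg (hs.norm s q hq) (hmom s q hq).1 (hmom s q hq).2]
  have hloc : ∀ x₀ : ℝ × (E' × E'), x₀ ∈ {x : ℝ × (E' × E') | x.2.1 ∈ Q ∧ x.2.2 = 0} →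
      ∃ O ∈ 𝓝 x₀, ∃ σ : E' → E, ContDiffOn ℝ ∞ (fun x : ℝ × (E' × E') => σ x.2.1) O ∧
        (∀ x ∈ O, (bm P r (ι (x.1, (σ x.2.1, 0))).1).det ≠ 0) ∧
        ∀ x ∈ O, x.2.1 ∈ Q → ‖σ x.2.1‖ = 1 ∧ P (σ x.2.1) = x.2.1 := by
    rintro ⟨s₀, ⟨y₀, p₀⟩⟩ ⟨hy₀, -⟩
    obtain ⟨hq₀, hPq⟩ := hqq y₀ hy₀
    obtain ⟨V, π, κ, O, hdV, hπ, hV, hOo, hO0, hκs, hκ1, hκ2⟩ := hk _ hq₀
    set σ : E' → E := fun y => κ (π (qq y₀), y) with hσ
    set S : Set (ℝ × (E' × E')) := (fun x => (π (qq y₀), x.2.1)) ⁻¹' O with hS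
    have ho : IsOpen S := hOo.preimage (by fun_prop)
    have hm0 : ((s₀, (y₀, p₀)) : ℝ × (E' × E')) ∈ S := by
      show (π (qq y₀), y₀) ∈ O
      rwa [hPq] at hO0
    have hc1 : ContDiffOn ℝ ∞ (fun x : ℝ × (E' × E') => σ x.2.1) S :=
      hκs.comp (contDiff_const.prodMk (contDiff_fst.comp contDiff_snd)).contDiffOn
        fun x hx => hx
    have hc2 : ContinuousOn (fun x : ℝ × (E' × E') => (bm P r (ι (x.1, (σ x.2.1, 0))).1).det)
        S := by
      have h2 : Continuous fun z : ℝ × (E × E) => (bm P r (ι z).1).det :=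
        ContinuousLinearMap.continuous_det.comp ((bm_smooth hc.smooth hr.smooth).continuous.comp
          (continuous_fst.comp hs.hι.continuous))
      exact h2.comp_continuousOn (continuous_fst.continuousOn.prodMk
        (hc1.continuousOn.prodMk continuousOn_const))
    have hσ0 : σ y₀ = qq y₀ := by
      have := hκ2.self_of_nhds hq₀
      rwa [hPq] at this
    have hne : (bm P r (ι (s₀, (σ y₀, 0))).1).det ≠ 0 := by
      rw [hσ0]
      exact hc.bm_det hr (hs.norm s₀ _ hq₀)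
    have h3 : S ∩ (fun x : ℝ × (E' × E') => (bm P r (ι (x.1, (σ x.2.1, 0))).1).det) ⁻¹' {0}ᶜ ∈
        𝓝 ((s₀, (y₀, p₀)) : ℝ × (E' × E')) := by
      refine (hc2.isOpen_inter_preimage ho isOpen_compl_singleton).mem_nhds ⟨hm0, ?_⟩
      exact hne
    refine ⟨_, h3, σ, hc1.mono fun x hx => hx.1, fun x hx => hx.2, fun x hx hxQ => ?_⟩
    obtain ⟨h4, h5, -⟩ := hκ1 _ hx.1 hxQ
    exact ⟨h4, h5⟩
  obtain ⟨J, hJ, hJJ⟩ := glue hKcl (fun x => TQ P r (ι (x.1, (qq x.2.1, 0)))) (fun x₀ hx₀ => by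
    obtain ⟨O, hO, σ, h1, h2, h3⟩ := hloc x₀ hx₀
    refine ⟨O, hO, fun x => TQ P r (ι (x.1, (σ x.2.1, 0))), ?_, ?_⟩
    · intro x hx
      have h4 : ContDiffWithinAt ℝ ∞ (fun x : ℝ × (E' × E') => ι (x.1, (σ x.2.1, 0))) O x :=
        hs.hι.contDiffAt.comp_contDiffWithinAt x (contDiffWithinAt_fst.prodMk
          ((h1 x hx).prodMk contDiffWithinAt_const))
      exact (hc.TQ_smooth hr (h2 x hx)).comp_contDiffWithinAt x h4
    · intro x hx hxK
      obtain ⟨h4, h5⟩ := h3 x hx hxK.1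
      obtain ⟨h6, h7⟩ := hqq x.2.1 hxK.1
      exact (hwell x.1 _ _ h4 h6 (h5.trans h7.symm)).1)
  obtain ⟨pf', hpf, hpff⟩ := glue hKcl (fun x => f (x.1, (qq x.2.1, 0))) (fun x₀ hx₀ => by
    obtain ⟨O, hO, σ, h1, h2, h3⟩ := hloc x₀ hx₀
    refine ⟨O, hO, fun x => f (x.1, (σ x.2.1, 0)), ?_, ?_⟩
    · intro x hx
      exact hs.hf.contDiffAt.comp_contDiffWithinAt x (contDiffWithinAt_fst.prodMk
          ((h1 x hx).prodMk contDiffWithinAt_const))
    · intro x hx hxK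
      obtain ⟨h4, h5⟩ := h3 x hx hxK.1
      obtain ⟨h6, h7⟩ := hqq x.2.1 hxK.1
      exact (hwell x.1 _ _ h4 h6 (h5.trans h7.symm)).2)
  have hJq : ∀ s, ∀ q : E, ‖q‖ = 1 → J (s, (P q, 0)) = TQ P r (ι (s, (q, 0))) := by
    intro s q hq
    have hy := hc.maps q hq
    obtain ⟨h1, h2⟩ := hqq (P q) hy
    rw [hJJ (s, (P q, 0)) ⟨hy, rfl⟩]
    exact (hwell s _ _ h1 hq h2).1
  have hfq : ∀ s, ∀ q : E, ‖q‖ = 1 → pf' (s, (P q, 0)) = f (s, (q, 0)) := by
    intro s q hq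
    have hy := hc.maps q hq
    obtain ⟨h1, h2⟩ := hqq (P q) hy
    rw [hpff (s, (P q, 0)) ⟨hy, rfl⟩]
    exact (hwell s _ _ h1 hq h2).2
  -- left inverses of the isotopy
  obtain ⟨UZ, ρZ, hρZ, hZT⟩ := exists_Zs_ret (E := E)
  have cZ : IsCompact (Zs E) := by
    have : Zs E = Sph E ×ˢ {0} := rfl
    rw [this]
    exact (isCompact_sphere _ _).prod isCompact_singleton
  obtain ⟨μ, hμ, hμι⟩ := hρZ.exists_leftInv cZ hs.hι
    (by
      rintro s ⟨q, p⟩ ⟨hq, hp⟩ ⟨q', p'⟩ ⟨hq', hp'⟩ h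
      simp only at hq hp hq' hp'
      subst hp hp'
      rw [hs.inj s q q' (mem_Sph.1 hq) (mem_Sph.1 hq') h])
    (by
      rintro s ⟨q, p⟩ ⟨hq, hp⟩ ⟨v1, v2⟩ hv h
      simp only at hq hp
      subst hp
      obtain ⟨h1, h2⟩ := hZT (q, 0) ⟨hq, rfl⟩ _ hv
      simp only at h1 h2
      subst h1
      rw [hs.imm s q v1 (mem_Sph.1 hq) h2 h]
      rfl)
  -- the zero section
  have hRet : IsRet {z : E' × E' | z.1 ∈ Q ∧ z.2 = 0} (UQ ×ˢ univ) fun z => (r z.1, 0) := by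
    refine ⟨?_, hr.isOpen.prod isOpen_univ, ?_, (hr.smooth.comp contDiff_fst).prodMk contDiff_const,
      ?_, ?_⟩
    · exact (hr.isClosed.preimage continuous_fst).inter (isClosed_singleton.preimage continuous_snd)
    · intro z hz
      exact ⟨hr.sub hz.1, mem_univ _⟩
    · intro z hz
      exact ⟨hr.maps _ hz.1, rfl⟩
    · rintro ⟨q, p⟩ ⟨h1, h2⟩
      simp only at h1 h2
      subst h2
      simp only [hr.fix q h1]
  have hTn : ∀ z : E' × E', z.1 ∈ Q → ∀ v ∈ Tn (fun z : E' × E' => ((r z.1, 0) : E' × E')) z,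
      v.2 = 0 ∧ v.1 ∈ Tan Q z.1 := by
    intro z hz v hv
    have h1 : HasFDerivAt (fun z : E' × E' => ((r z.1, 0) : E' × E'))
        (((fderiv ℝ r z.1).comp (ContinuousLinearMap.fst ℝ E' E')).prod 0) z :=
      ((hr.hasFDerivAt z.1).comp z hasFDerivAt_fst).prodMk (hasFDerivAt_const _ _)
    rw [mem_Tn, h1.fderiv] at hv
    have h2 : fderiv ℝ r z.1 v.1 = v.1 := congrArg Prod.fst hv
    have h3 : (0 : E') = v.2 := congrArg Prod.snd hv
    exact ⟨h3.symm, (hr.mem_Tan hz).2 h2⟩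
  have cK : IsCompact {z : E' × E' | z.1 ∈ Q ∧ z.2 = 0} := by
    have : {z : E' × E' | z.1 ∈ Q ∧ z.2 = 0} = Q ×ˢ {0} := rfl
    rw [this]
    exact hQ.compact.prod isCompact_singleton
  -- a tangent vector of the zero section
  have hder : ∀ s, ∀ q u : E, ‖q‖ = 1 → inner ℝ q u = (0 : ℝ) →
      fderiv ℝ J (s, (P q, 0)) (0, (fderiv ℝ P q u, 0)) =
        fderiv ℝ (TQ P r) (ι (s, (q, 0))) (fderiv ℝ ι (s, (q, 0)) (0, (u, 0))) ∧
      fderiv ℝ pf' (s, (P q, 0)) (0, (fderiv ℝ P q u, 0)) =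
        fderiv ℝ f (s, (q, 0)) (0, (u, 0)) ∧
      inner ℝ (ι (s, (q, 0))).1 (fderiv ℝ ι (s, (q, 0)) (0, (u, 0))).1 = (0 : ℝ) ∧
      (fderiv ℝ (TQ P r) (ι (s, (q, 0))) (fderiv ℝ ι (s, (q, 0)) (0, (u, 0))) = 0 →
        fderiv ℝ P q u = 0) := by
    intro s q u hq hu
    obtain ⟨c, h1, h2, -, h3, h4⟩ := curve_sph hq hu
    have d1 : HasDerivAt (fun t => ((s, (c t, 0)) : ℝ × (E × E))) (0, (u, 0)) 0 :=
      (hasDerivAt_const (0 : ℝ) s).prodMk (h4.prodMk (hasDerivAt_const (0 : ℝ) (0 : E)))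
    have d2 : HasDerivAt (fun t => ι (s, (c t, 0))) (fderiv ℝ ι (s, (q, 0)) (0, (u, 0))) 0 := by
      have h5 : HasFDerivAt ι (fderiv ℝ ι (s, (q, 0))) (s, (c 0, 0)) := by
        rw [h3]
        exact (hs.hι.differentiable (by simp) _).hasFDerivAt
      exact h5.comp_hasDerivAt 0 d1
    have d3 : HasDerivAt (fun t => f (s, (c t, 0))) (fderiv ℝ f (s, (q, 0)) (0, (u, 0))) 0 := by
      have h5 : HasFDerivAt f (fderiv ℝ f (s, (q, 0))) (s, (c 0, 0)) := by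
        rw [h3]
        exact (hs.hf.differentiable (by simp) _).hasFDerivAt
      exact h5.comp_hasDerivAt 0 d1
    have d4 : HasDerivAt (fun t => P (c t)) (fderiv ℝ P q u) 0 := by
      have h5 : HasFDerivAt P (fderiv ℝ P q) (c 0) := by
        rw [h3]
        exact (hc.smooth.differentiable (by simp) _).hasFDerivAt
      exact h5.comp_hasDerivAt 0 h4
    have d5 : HasDerivAt (fun t => ((s, (P (c t), 0)) : ℝ × (E' × E')))
        (0, (fderiv ℝ P q u, 0)) 0 :=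
      (hasDerivAt_const (0 : ℝ) s).prodMk (d4.prodMk (hasDerivAt_const (0 : ℝ) (0 : E')))
    have d6 : HasDerivAt (fun t => TQ P r (ι (s, (c t, 0))))
        (fderiv ℝ (TQ P r) (ι (s, (q, 0))) (fderiv ℝ ι (s, (q, 0)) (0, (u, 0)))) 0 := by
      have h5 : HasFDerivAt (TQ P r) (fderiv ℝ (TQ P r) (ι (s, (q, 0)))) (ι (s, (c 0, 0))) := by
        rw [h3]
        exact ((hc.TQ_smooth hr (hc.bm_det hr (hs.norm s q hq))).differentiableAt
          (by simp)).hasFDerivAt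
      exact h5.comp_hasDerivAt 0 d2
    have hn1 : ∀ t, ‖(ι (s, (c t, 0))).1‖ = 1 := fun t => hs.norm s _ (mem_Sph.1 (h2 t))
    have horth : inner ℝ (ι (s, (q, 0))).1 (fderiv ℝ ι (s, (q, 0)) (0, (u, 0))).1 = (0 : ℝ) := by
      refine (tan_sph (hs.norm s q hq)).1 ⟨fun t => (ι (s, (c t, 0))).1, ?_,
        fun t => mem_Sph.2 (hn1 t), by
          beta_reduce
          rw [h3], ?_⟩
      · exact contDiff_fst.comp (hs.hι.comp (contDiff_const.prodMk (h1.prodMk contDiff_const)))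
      · exact (dfst d2).deriv
    refine ⟨?_, ?_, horth, ?_⟩
    · have h5 : HasFDerivAt J (fderiv ℝ J (s, (P q, 0))) (s, (P (c 0), 0)) := by
        rw [h3]
        exact (hJ.differentiable (by simp) _).hasFDerivAt
      have d7 : HasDerivAt (fun t => J (s, (P (c t), 0))) _ 0 := h5.comp_hasDerivAt 0 d5
      have h6 : (fun t => J (s, (P (c t), 0))) = fun t => TQ P r (ι (s, (c t, 0))) :=
        funext fun t => hJq s _ (mem_Sph.1 (h2 t))
      rw [h6] at d7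
      exact d7.unique d6
    · have h5 : HasFDerivAt pf' (fderiv ℝ pf' (s, (P q, 0))) (s, (P (c 0), 0)) := by
        rw [h3]
        exact (hpf.differentiable (by simp) _).hasFDerivAt
      have d7 : HasDerivAt (fun t => pf' (s, (P (c t), 0))) _ 0 := h5.comp_hasDerivAt 0 d5
      have h6 : (fun t => pf' (s, (P (c t), 0))) = fun t => f (s, (c t, 0)) :=
        funext fun t => hfq s _ (mem_Sph.1 (h2 t))
      rw [h6] at d7
      exact d7.unique d3
    · intro h0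
      set x : E := (ι (s, (q, 0))).1 with hx
      set p' : E' := (TQ P r (ι (s, (q, 0)))).2 with hp'
      set ν : E := (fderiv ℝ ι (s, (q, 0)) (0, (u, 0))).1 with hν
      have hx1 : ‖x‖ = 1 := hs.norm s q hq
      have hν2 : fderiv ℝ P x ν = 0 := by
        rw [hν, ← hc.TQ_fst hr (z := ι (s, (q, 0))) (hs.norm s q hq), h0]
        rfl
      have hpbd : HasFDerivAt (pb P) (fderiv ℝ (pb P) (x, p')) (x, p') :=
        ((pb_smooth hc.smooth).differentiable (by simp) (x, p')).hasFDerivAt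
      -- the second component of the velocity
      have e2 : (fderiv ℝ ι (s, (q, 0)) (0, (u, 0))).2 = fderiv ℝ (pb P) (x, p') (ν, 0) := by
        rw [h0] at d6
        have d8 : HasDerivAt (fun t => (ι (s, (c t, 0))).2)
            (fderiv ℝ ι (s, (q, 0)) (0, (u, 0))).2 0 := dsnd d2
        have d9 : HasDerivAt (fun t => (((ι (s, (c t, 0))).1,
            (TQ P r (ι (s, (c t, 0)))).2) : E × E')) (ν, (0 : E' × E').2) 0 :=
          (dfst d2).prodMk (dsnd d6)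
        have hpbd' : HasFDerivAt (pb P) (fderiv ℝ (pb P) (x, p'))
            ((ι (s, (c 0, 0))).1, (TQ P r (ι (s, (c 0, 0)))).2) := by
          rw [h3]
          exact hpbd
        have d10 := hpbd'.comp_hasDerivAt 0 d9
        have h6 : (pb P ∘ fun t => (((ι (s, (c t, 0))).1,
            (TQ P r (ι (s, (c t, 0)))).2) : E × E')) = fun t => (ι (s, (c t, 0))).2 :=
          funext fun t => (hmom s _ (mem_Sph.1 (h2 t))).2
        rw [h6] at d10
        exact d8.unique d10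
      -- the fibre curve
      obtain ⟨γ, hγs, hγ0, hγd, hγ⟩ := hc.fibre_curve hk hx1 horth hν2
      have k1 : HasDerivAt (fun t => ((γ t, p') : E × E')) (ν, 0) 0 :=
        hγd.prodMk (hasDerivAt_const (0 : ℝ) p')
      have k2 : HasDerivAt (fun t => pb P (γ t, p')) (fderiv ℝ (pb P) (x, p') (ν, 0)) 0 := by
        have hpbd' : HasFDerivAt (pb P) (fderiv ℝ (pb P) (x, p')) (γ 0, p') := by
          rw [hγ0]
          exact hpbd
        exact hpbd'.comp_hasDerivAt 0 k1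
      have k3 : HasDerivAt (fun t => ((γ t, pb P (γ t, p')) : E × E))
          (fderiv ℝ ι (s, (q, 0)) (0, (u, 0))) 0 := by
        refine (hγd.prodMk k2).congr_deriv ?_
        exact Prod.ext rfl e2.symm
      -- the curve in the fibre of `q`
      set ε : ℝ → E := fun t => (μ (s, (γ t, pb P (γ t, p')))).1 with hε
      have hιx : ι (s, (q, 0)) = (x, pb P (x, p')) := Prod.ext rfl (hmom s q hq).2.symm
      have hεt : ∀ᶠ t in 𝓝 (0 : ℝ), ‖ε t‖ = 1 ∧ P (ε t) = P q ∧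
          ι (s, (ε t, 0)) = (γ t, pb P (γ t, p')) := by
        filter_upwards [hγ] with t ht
        obtain ⟨g, hg, hgx⟩ := hc.deck x (γ t) hx1 ht.1 ht.2.symm
        have j1 : ι (s, (g q, 0)) = (γ t, pb P (γ t, p')) := by
          rw [hs.eqv g hg s q hq, ← hgx, hc.pb_g hg hx1, hιx]
        have hgq : ‖g q‖ = 1 := by rw [LinearIsometryEquiv.norm_map, hq]
        have j2 : ε t = g q := by
          have j3 : μ (s, (γ t, pb P (γ t, p'))) = (g q, 0) := by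
            rw [← j1]
            exact hμι s (g q, 0) ⟨mem_Sph.2 hgq, rfl⟩
          show (μ (s, (γ t, pb P (γ t, p')))).1 = g q
          rw [j3]
        rw [j2]
        exact ⟨hgq, hc.inv g hg q hq, j1⟩
      have hε0 : ε 0 = q := by
        show (μ (s, (γ 0, pb P (γ 0, p')))).1 = q
        rw [hγ0, ← hιx, hμι s (q, 0) ⟨mem_Sph.2 hq, rfl⟩]
      obtain ⟨η, hη⟩ : ∃ η, HasDerivAt ε η 0 := by
        have j1 : HasDerivAt (fun t => ((s, (γ t, pb P (γ t, p'))) : ℝ × (E × E)))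
            (0, fderiv ℝ ι (s, (q, 0)) (0, (u, 0))) 0 :=
          (hasDerivAt_const (0 : ℝ) s).prodMk k3
        have j2 := (hμ.differentiable (by simp)
          (s, (γ 0, pb P (γ 0, p')))).hasFDerivAt.comp_hasDerivAt 0 j1
        exact ⟨_, dfst j2⟩
      have η1 : fderiv ℝ P q η = 0 := by
        have j1 : HasFDerivAt P (fderiv ℝ P q) (ε 0) := by
          rw [hε0]
          exact (hc.smooth.differentiable (by simp) q).hasFDerivAt
        have j2 : HasDerivAt (fun t => P (ε t)) (fderiv ℝ P q η) 0 := j1.comp_hasDerivAt 0 hη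
        refine j2.unique ((hasDerivAt_const (0 : ℝ) (P q)).congr_of_eventuallyEq ?_)
        filter_upwards [hεt] with t ht
        exact ht.2.1
      have η2 : inner ℝ q η = (0 : ℝ) := by
        have j1 := hη.inner ℝ hη
        have j2 := j1.unique ((hasDerivAt_const (0 : ℝ) (1 : ℝ)).congr_of_eventuallyEq (by
          filter_upwards [hεt] with t ht
          rw [real_inner_self_eq_norm_sq, ht.1]
          norm_num))
        rw [hε0, real_inner_comm q η] at j2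
        linarith
      have η3 : fderiv ℝ ι (s, (q, 0)) (0, (η, 0)) = fderiv ℝ ι (s, (q, 0)) (0, (u, 0)) := by
        have j1 : HasDerivAt (fun t => ((s, (ε t, 0)) : ℝ × (E × E))) (0, (η, 0)) 0 :=
          (hasDerivAt_const (0 : ℝ) s).prodMk (hη.prodMk (hasDerivAt_const (0 : ℝ) (0 : E)))
        have j2 : HasFDerivAt ι (fderiv ℝ ι (s, (q, 0))) (s, (ε 0, 0)) := by
          rw [hε0]
          exact (hs.hι.differentiable (by simp) _).hasFDerivAt
        have j3 : HasDerivAt (fun t => ι (s, (ε t, 0))) (fderiv ℝ ι (s, (q, 0)) (0, (η, 0))) 0 :=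
          j2.comp_hasDerivAt 0 j1
        refine j3.unique (k3.congr_of_eventuallyEq ?_)
        filter_upwards [hεt] with t ht
        exact ht.2.2
      have η4 : u - η = 0 := by
        refine hs.imm s q (u - η) hq (by rw [inner_sub_right, hu, η2, sub_zero]) ?_
        have j1 : ((0, (u - η, 0)) : ℝ × (E × E)) = (0, (u, 0)) - (0, (η, 0)) := by simp
        rw [j1, map_sub, η3, sub_self]
      rw [sub_eq_zero.1 η4]
      exact η1
  obtain ⟨H, φ, hH, hφ, hφι⟩ := H481.ham_ext hr hQ.compact hRet cK hJ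
    (by
      rintro s ⟨y, p⟩ ⟨hy, hp⟩
      simp only at hy hp
      subst hp
      obtain ⟨q, hq, rfl⟩ := hc.surj y hy
      rw [hJq s q hq]
      exact ⟨hc.maps _ (hs.norm s q hq), (hmom s q hq).1⟩)
    (by
      rintro s ⟨y, p⟩ ⟨hy, hp⟩ ⟨y', p'⟩ ⟨hy', hp'⟩ h
      simp only at hy hp hy' hp'
      subst hp hp'
      obtain ⟨q, hq, rfl⟩ := hc.surj y hy
      obtain ⟨q', hq', rfl⟩ := hc.surj y' hy'
      rw [hJq s q hq, hJq s q' hq'] at h
      obtain ⟨g, hg, h1⟩ := hc.TQ_eq (hs.norm s q hq) (hmom s q hq).2 (hs.norm s q' hq')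
        (hmom s q' hq').2 h
      rw [← hs.eqv g hg s q hq] at h1
      have h2 := hs.inj s (g q) q' (by rw [LinearIsometryEquiv.norm_map, hq]) hq' h1
      rw [← h2, hc.inv g hg q hq])
    (by
      rintro s ⟨y, p⟩ ⟨hy, hp⟩ ⟨v1, v2⟩ hv h
      simp only at hy hp
      subst hp
      obtain ⟨hv2, hv1⟩ := hTn (y, 0) hy _ hv
      simp only at hv2 hv1
      subst hv2
      obtain ⟨q, hq, rfl⟩ := hc.surj y hy
      obtain ⟨u, hu, rfl⟩ := (hc.tan_Q hq).1 hv1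
      obtain ⟨h1, -, -, h4⟩ := hder s q u hq hu
      rw [h1] at h
      rw [h4 h]
      rfl)
    hpf
    (by
      rintro s ⟨y, p⟩ ⟨hy, hp⟩ ⟨v1, v2⟩ hv
      simp only at hy hp
      subst hp
      obtain ⟨hv2, hv1⟩ := hTn (y, 0) hy _ hv
      simp only at hv2 hv1
      subst hv2
      obtain ⟨q, hq, rfl⟩ := hc.surj y hy
      obtain ⟨u, hu, rfl⟩ := (hc.tan_Q hq).1 hv1
      obtain ⟨h1, h2, h3, -⟩ := hder s q u hq hu
      rw [h1, h2, hJq s q hq, hc.TQ_lam hr (hs.norm s q hq) (hmom s q hq).2 h3]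
      exact hs.ex s q u hq hu)
  refine ⟨H, φ, hH, hφ, ?_⟩
  have hJ0 : ∀ q : E, ‖q‖ = 1 → J (0, (P q, 0)) = (P q, 0) := by
    intro q hq
    rw [hJq 0 q hq, hs.zero q hq]
    have h0 : (0 : E') ∈ Tan Q (P q) := (hc.tan_Q hq).2 ⟨0, inner_zero_right q, map_zero _⟩
    have h1 := hc.TQ_pb hr hq h0
    have h2 : pb P (q, (0 : E')) = 0 := by simp [pb]
    rw [h2] at h1
    exact h1
  have h1mem : (1 : ℝ) ∈ Icc (0 : ℝ) 1 := by simp
  have hφ1 : ∀ q : E, ‖q‖ = 1 → φ 1 (P q, 0) = TQ P r (ι (1, (q, 0))) := by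
    intro q hq
    have h1 := hφι 1 h1mem (P q, 0) ⟨hc.maps q hq, rfl⟩
    rwa [hJ0 q hq, hJq 1 q hq] at h1
  ext w
  constructor
  · rintro ⟨⟨y, p⟩, ⟨hy, hp⟩, rfl⟩
    simp only at hy hp
    subst hp
    obtain ⟨q, hq, rfl⟩ := hc.surj y hy
    rw [hφ1 q hq]
    exact ((hc.mem_lift hr hL).1 ((hs.one _).2 ⟨q, hq, rfl⟩)).2.2
  · intro hw
    obtain ⟨q, hq, hqw⟩ := hc.surj w.1 (hL hw).1
    obtain ⟨q', hq', h1⟩ := (hs.one _).1 (show (q, pb P (q, w.2)) ∈ lift P L from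
      ⟨hq, w, hw, hqw.symm, rfl⟩)
    refine ⟨(P q', 0), ⟨hc.maps q' hq', rfl⟩, ?_⟩
    rw [hφ1 q' hq', h1]
    exact hc.TQ_lift hr hL hq hw hqw.symm

end IsQuot

end Vale.Agent.P220.R2.H57Q
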