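import Vale.Agent.P220.R2.H57Q.Lift

/-!
# Fibre coordinates of a submersion of the sphere
-/

open Set Filter Topology
open scoped ContDiff

set_option linter.unusedSectionVars false

namespace Vale.Agent.P220.R2.H57Q

open H57 H180 H57S

variable {E : Type} [NormedAddCommGroup E] [InnerProductSpace ℝ E] [FiniteDimensional ℝ E]
  {E' : Type} [NormedAddCommGroup E'] [InnerProductSpace ℝ E'] [FiniteDimensional ℝ E']

/-- the vertical space -/
def vert (P : E → E') (q : E) : Submodule ℝ E where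
  carrier := {v | inner ℝ q v = (0 : ℝ) ∧ fderiv ℝ P q v = 0}
  add_mem' := by
    rintro a b ⟨h1, h2⟩ ⟨h3, h4⟩
    exact ⟨by rw [inner_add_right, h1, h3, add_zero], by rw [map_add, h2, h4, add_zero]⟩
  zero_mem' := ⟨inner_zero_right q, map_zero _⟩
  smul_mem' := by
    rintro k a ⟨h1, h2⟩
    exact ⟨by rw [inner_smul_right, h1, mul_zero], by rw [map_smul, h2, smul_zero]⟩

theorem mem_vert {P : E → E'} {q v : E} :
    v ∈ vert P q ↔ inner ℝ q v = (0 : ℝ) ∧ fderiv ℝ P q v = 0 := Iff.rfl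

namespace IsQuot

variable {n m : ℕ} {Q : Set E'} {P : E → E'} {Γ : Set (E ≃ₗᵢ[ℝ] E)} (hc : IsQuot Q P Γ)

include hc

theorem finrank_vert (hn : Module.finrank ℝ E = n + 1) (hQ : IsClosedManifold m Q) {q : E}
    (hq : ‖q‖ = 1) : Module.finrank ℝ (vert P q) + m = n := by
  obtain ⟨U, r, hr, dr⟩ := exists_ret hQ.sub hQ.compact
  have hq0 : q ≠ 0 := by
    rintro rfl
    simp at hq
  have hT : Module.finrank ℝ (ℝ ∙ q)ᗮ = n := by
    have := Fact.mk hn
    exact Submodule.finrank_orthogonal_span_singleton hq0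
  have hmem : ∀ u ∈ (ℝ ∙ q)ᗮ, inner ℝ q u = (0 : ℝ) := fun u hu =>
    hu q (Submodule.mem_span_singleton_self q)
  have hmem' : ∀ u, inner ℝ q u = (0 : ℝ) → u ∈ (ℝ ∙ q)ᗮ := by
    intro u hu
    rw [Submodule.mem_orthogonal_singleton_iff_inner_right]
    exact hu
  set a : (ℝ ∙ q)ᗮ →ₗ[ℝ] E' := (fderiv ℝ P q : E →ₗ[ℝ] E').domRestrict (ℝ ∙ q)ᗮ with ha
  have hran : LinearMap.range a = Tn r (P q) := by
    ext v
    rw [mem_Tn, ← hc.tan_mem hr hq, hc.tan_Q hq]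
    constructor
    · rintro ⟨⟨u, hu⟩, rfl⟩
      exact ⟨u, hmem u hu, rfl⟩
    · rintro ⟨u, hu, rfl⟩
      exact ⟨⟨u, hmem' u hu⟩, rfl⟩
  have hker : (LinearMap.ker a).map (ℝ ∙ q)ᗮ.subtype = vert P q := by
    ext v
    constructor
    · rintro ⟨⟨u, hu⟩, h1, rfl⟩
      exact ⟨hmem u hu, h1⟩
    · rintro ⟨h1, h2⟩
      exact ⟨⟨v, hmem' v h1⟩, h2, rfl⟩
  have h1 := a.finrank_range_add_finrank_ker
  rw [hran, dr _ (hc.maps q hq), hT] at h1
  have h2 : Module.finrank ℝ (vert P q) = Module.finrank ℝ (LinearMap.ker a) := by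
    rw [← hker]
    exact Submodule.finrank_map_subtype_eq _ _
  rw [h2]
  omega

/-- **Fibre coordinates.** -/
theorem hasKappa (hn : Module.finrank ℝ E = n + 1) (hQ : IsClosedManifold m Q) {q₀ : E}
    (hq₀ : ‖q₀‖ = 1) : HasKappa n m Q P q₀ := by
  have hE : CompleteSpace E := FiniteDimensional.complete ℝ E
  have hy₀ : P q₀ ∈ Q := hc.maps q₀ hq₀
  obtain ⟨Φ, W, hΦ0, hΦs, hΦs', hW, hΦQ⟩ := hQ.sub (P q₀) hy₀
  set V := vert P q₀ with hV
  have hVd := hc.finrank_vert hn hQ hq₀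
  set π : E →L[ℝ] V := V.orthogonalProjectionOnto with hπ
  have hπv : ∀ v : V, π v = v := fun v => V.orthogonalProjectionOnto_mem_subspace_eq_self v
  set wp : E' →L[ℝ] W := W.orthogonalProjectionOnto with hwp
  have hpw : ∀ w : W, wp w = w := fun w => W.orthogonalProjectionOnto_mem_subspace_eq_self w
  have hpw' : ∀ w ∈ W, ((wp w : W) : E') = w := fun w hw => congrArg Subtype.val (hpw ⟨w, hw⟩)
  obtain ⟨Ψ, hΨ, hΨe⟩ := globalize (Φ.open_source.mem_nhds hΦ0) hΦs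
  have hΨ0 : Ψ (P q₀) = Φ (P q₀) := hΨe.self_of_nhds
  -- the derivative of the chart
  have hΨd : HasFDerivAt Ψ (fderiv ℝ Ψ (P q₀)) (P q₀) :=
    (hΨ.differentiable (by simp) _).hasFDerivAt
  have hΨinj : ∀ v, fderiv ℝ Ψ (P q₀) v = 0 → v = 0 := by
    intro v hv
    have h1 : HasFDerivAt Φ.symm (fderiv ℝ Φ.symm (Ψ (P q₀))) (Ψ (P q₀)) := by
      rw [hΨ0]
      exact ((hΦs'.contDiffAt (Φ.open_target.mem_nhds (Φ.map_source hΦ0))).differentiableAt
        (by simp)).hasFDerivAt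
    have h2 := h1.comp (P q₀) hΨd
    have h3 : (Φ.symm ∘ Ψ) =ᶠ[𝓝 (P q₀)] id := by
      filter_upwards [hΨe, Φ.open_source.mem_nhds hΦ0] with y h4 h5
      simp only [Function.comp_apply, h4, id]
      exact Φ.left_inv h5
    have h4 := h2.unique ((hasFDerivAt_id (P q₀)).congr_of_eventuallyEq h3)
    have h5 := congrArg (fun C : E' →L[ℝ] E' => C v) h4
    simp only [ContinuousLinearMap.comp_apply, hv, map_zero, ContinuousLinearMap.id_apply] at h5
    exact h5.symm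
  have hΨW : ∀ u : E, inner ℝ q₀ u = (0 : ℝ) → fderiv ℝ Ψ (P q₀) (fderiv ℝ P q₀ u) ∈ W := by
    intro u hu
    obtain ⟨c, h1, h2, -, h3, h4⟩ := curve_sph hq₀ hu
    have d1 : HasDerivAt (fun t => P (c t)) (fderiv ℝ P q₀ u) 0 := by
      have h5 : HasFDerivAt P (fderiv ℝ P q₀) (c 0) := by
        rw [h3]
        exact (hc.smooth.differentiable (by simp) _).hasFDerivAt
      exact h5.comp_hasDerivAt 0 h4
    have d2 : HasDerivAt (fun t => Ψ (P (c t))) (fderiv ℝ Ψ (P q₀) (fderiv ℝ P q₀ u)) 0 := by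
      have h5 : HasFDerivAt Ψ (fderiv ℝ Ψ (P q₀)) (P (c 0)) := by
        rw [h3]
        exact hΨd
      exact h5.comp_hasDerivAt 0 d1
    have d3 : HasDerivAt (fun t => ((wp (Ψ (P (c t))) : W) : E'))
        ((wp (fderiv ℝ Ψ (P q₀) (fderiv ℝ P q₀ u)) : W) : E') 0 :=
      W.subtypeL.hasFDerivAt.comp_hasDerivAt 0 (wp.hasFDerivAt.comp_hasDerivAt 0 d2)
    have hct : Tendsto (fun t => P (c t)) (𝓝 0) (𝓝 (P q₀)) := by
      have := d1.continuousAt.tendsto
      rwa [h3] at this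
    have h5 := d3.unique (d2.congr_of_eventuallyEq (by
      filter_upwards [hct.eventually hΨe, hct.eventually (Φ.open_source.mem_nhds hΦ0)] with t h6 h7
      rw [h6]
      exact hpw' _ ((hΦQ _ h7).1 (hc.maps _ (mem_Sph.1 (h2 t))))))
    rw [← h5]
    exact (wp _).2
  -- the coordinates
  set f : E → (V × W) × ℝ := fun x => ((π x, wp (Ψ (P x))), inner ℝ x x) with hf
  have hfs : ContDiff ℝ ∞ f :=
    (π.contDiff.prodMk (wp.contDiff.comp (hΨ.comp hc.smooth))).prodMk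
      (contDiff_id.inner ℝ contDiff_id)
  have hPd : HasFDerivAt P (fderiv ℝ P q₀) q₀ := (hc.smooth.differentiable (by simp) _).hasFDerivAt
  have hinj : ∀ v, fderiv ℝ f q₀ v = 0 → v = 0 := by
    intro v hv
    have h1 : HasFDerivAt f (fderiv ℝ f q₀) q₀ := (hfs.differentiable (by simp) _).hasFDerivAt
    have h2 : HasFDerivAt (fun x => π x) ((ContinuousLinearMap.fst ℝ V W).comp
        ((ContinuousLinearMap.fst ℝ (V × W) ℝ).comp (fderiv ℝ f q₀))) q₀ :=
      (ContinuousLinearMap.fst ℝ V W).hasFDerivAt.comp q₀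
        ((ContinuousLinearMap.fst ℝ (V × W) ℝ).hasFDerivAt.comp q₀ h1)
    have h3 : HasFDerivAt (fun x => wp (Ψ (P x))) ((ContinuousLinearMap.snd ℝ V W).comp
        ((ContinuousLinearMap.fst ℝ (V × W) ℝ).comp (fderiv ℝ f q₀))) q₀ :=
      (ContinuousLinearMap.snd ℝ V W).hasFDerivAt.comp q₀
        ((ContinuousLinearMap.fst ℝ (V × W) ℝ).hasFDerivAt.comp q₀ h1)
    have h4 : HasFDerivAt (fun x : E => (inner ℝ x x : ℝ))
        ((ContinuousLinearMap.snd ℝ (V × W) ℝ).comp (fderiv ℝ f q₀)) q₀ :=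
      (ContinuousLinearMap.snd ℝ (V × W) ℝ).hasFDerivAt.comp q₀ h1
    have e1 : π v = 0 := by
      have h5 := congrArg (fun C : E →L[ℝ] V => C v) (h2.unique π.hasFDerivAt)
      simp only [ContinuousLinearMap.comp_apply, hv, map_zero] at h5
      exact h5.symm
    have e2 : wp (fderiv ℝ Ψ (P q₀) (fderiv ℝ P q₀ v)) = 0 := by
      have h6 : HasFDerivAt (fun x => wp (Ψ (P x))) (wp.comp ((fderiv ℝ Ψ (P q₀)).comp
          (fderiv ℝ P q₀))) q₀ := wp.hasFDerivAt.comp q₀ (hΨd.comp q₀ hPd)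
      have h5 := congrArg (fun C : E →L[ℝ] W => C v) (h3.unique h6)
      simp only [ContinuousLinearMap.comp_apply, hv, map_zero] at h5
      exact h5.symm
    have e3 : inner ℝ q₀ v = (0 : ℝ) := by
      have h6 := (hasFDerivAt_id q₀).inner ℝ (hasFDerivAt_id q₀)
      have h5 := congrArg (fun C : E →L[ℝ] ℝ => C v) (h4.unique h6)
      simp only [ContinuousLinearMap.comp_apply, hv, map_zero] at h5
      simp [fderivInnerCLM_apply, real_inner_comm q₀ v] at h5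
      linarith
    have e4 : fderiv ℝ P q₀ v = 0 := by
      refine hΨinj _ ?_
      rw [← hpw' _ (hΨW v e3), e2]
      rfl
    have e5 : v ∈ V := ⟨e3, e4⟩
    have e6 := hπv ⟨v, e5⟩
    rw [e1] at e6
    exact (congrArg Subtype.val e6).symm
  have hdim : Module.finrank ℝ ((V × W) × ℝ) = Module.finrank ℝ E := by
    rw [Module.finrank_prod, Module.finrank_prod, hW, Module.finrank_self, hn, hVd]
  have hsurj : (fderiv ℝ f q₀).range = ⊤ := by
    have h1 : Function.Injective (fderiv ℝ f q₀ : E →ₗ[ℝ] (V × W) × ℝ) := by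
      intro a b hab
      have h2 : fderiv ℝ f q₀ (a - b) = 0 := by
        rw [map_sub]
        exact sub_eq_zero.2 hab
      exact sub_eq_zero.1 (hinj _ h2)
    exact LinearMap.range_eq_top.2
      ((LinearMap.injective_iff_surjective_of_finrank_eq_finrank hdim.symm).1 h1)
  have hmap : map f (𝓝 q₀) = 𝓝 (f q₀) :=
    (hfs.contDiffAt.hasStrictFDerivAt (by simp)).map_nhds_eq_of_surj hsurj
  obtain ⟨O, hO, g, hg, hgf⟩ := H57.exists_leftInv hfs hinj
  obtain ⟨O₁, hO₁O, hO₁o, hO₁m⟩ := mem_nhds_iff.1 hO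
  have hPt : Tendsto P (𝓝 q₀) (𝓝 (P q₀)) := hc.smooth.continuous.tendsto q₀
  -- a neighbourhood in the coordinate space on which `g` is an inverse
  have hgood : ∀ᶠ w in 𝓝 (f q₀), f (g w) = w ∧ P (g w) ∈ Φ.source ∧ Ψ (P (g w)) = Φ (P (g w)) := by
    rw [← hmap, eventually_map]
    filter_upwards [hgf, hPt.eventually hΨe, hPt.eventually (Φ.open_source.mem_nhds hΦ0)] with
      x h1 h2 h3
    rw [h1]
    exact ⟨rfl, h3, h2⟩
  obtain ⟨O₂, hO₂, hO₂o, hO₂m⟩ := eventually_nhds_iff.1 hgood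
  set l : V × E' → (V × W) × ℝ := fun x => ((x.1, wp (Ψ x.2)), 1) with hl
  have hls : ContDiff ℝ ∞ l := (contDiff_fst.prodMk (wp.contDiff.comp (hΨ.comp contDiff_snd))).prodMk
    contDiff_const
  have hl0 : l (π q₀, P q₀) = f q₀ := by
    simp only [hl, hf, real_inner_self_eq_norm_sq, hq₀, one_pow]
  obtain ⟨O₃, hO₃, hO₃o, hO₃m⟩ := eventually_nhds_iff.1
    (hΨe.and (Φ.open_source.eventually_mem hΦ0))
  refine ⟨V, π, fun x => g (l x), (l ⁻¹' (O₁ ∩ O₂)) ∩ (Prod.snd ⁻¹' O₃), hVd, hπv,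
    fun v => mem_vert, ?_, ?_, ?_, ?_, ?_⟩
  · exact ((hO₁o.inter hO₂o).preimage hls.continuous).inter (hO₃o.preimage continuous_snd)
  · refine ⟨?_, hO₃m⟩
    show l (π q₀, P q₀) ∈ O₁ ∩ O₂
    rw [hl0]
    exact ⟨hO₁m, hO₂m⟩
  · exact (hg.mono hO₁O).comp hls.contDiffOn fun x hx => hx.1.1
  · rintro x ⟨⟨-, hx2⟩, hx3⟩ hxQ
    obtain ⟨h1, h2, h3⟩ := hO₂ _ hx2
    obtain ⟨h4, h5⟩ := hO₃ _ hx3
    have k1 : inner ℝ (g (l x)) (g (l x)) = (1 : ℝ) := congrArg Prod.snd h1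
    have k2 : π (g (l x)) = x.1 := congrArg (fun w => w.1.1) h1
    have k3 : wp (Ψ (P (g (l x)))) = wp (Ψ x.2) := congrArg (fun w => w.1.2) h1
    have hn1 : ‖g (l x)‖ = 1 := by
      rw [real_inner_self_eq_norm_sq] at k1
      nlinarith [norm_nonneg (g (l x))]
    have k4 : Φ (P (g (l x))) ∈ W := (hΦQ _ h2).1 (hc.maps _ hn1)
    have k5 : Φ x.2 ∈ W := (hΦQ _ h5).1 hxQ
    rw [h3, h4] at k3
    have k6 : Φ (P (g (l x))) = Φ x.2 := by
      rw [← hpw' _ k4, ← hpw' _ k5, k3]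
    exact ⟨hn1, Φ.injOn h2 h5 k6, k2⟩
  · filter_upwards [hgf] with q h1 hq
    have h2 : l (π q, P q) = f q := by
      simp only [hl, hf, real_inner_self_eq_norm_sq, hq, one_pow]
    show g (l (π q, P q)) = q
    rw [h2]
    exact h1

end IsQuot

end Vale.Agent.P220.R2.H57Q
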