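import Vale.Agent.P220.R2.H57Q.Cov

/-!
# The preimage of an exact Lagrangian under a quotient map of the sphere
-/

open Set Filter Topology
open scoped ContDiff

set_option linter.unusedSectionVars false

namespace Vale.Agent.P220.R2.H57Q

open H57 H180 H57S

variable {E : Type} [NormedAddCommGroup E] [InnerProductSpace ℝ E] [FiniteDimensional ℝ E]
  {E' : Type} [NormedAddCommGroup E'] [InnerProductSpace ℝ E'] [FiniteDimensional ℝ E']

/-- fibre coordinates of the submersion near a point -/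
def HasKappa (n m : ℕ) (Q : Set E') (P : E → E') (q₀ : E) : Prop :=
  ∃ (V : Submodule ℝ E) (π : E →L[ℝ] V) (κ : V × E' → E) (O : Set (V × E')),
    Module.finrank ℝ V + m = n ∧ (∀ v : V, π v = v) ∧
    (∀ v : E, v ∈ V ↔ inner ℝ q₀ v = (0 : ℝ) ∧ fderiv ℝ P q₀ v = 0) ∧ IsOpen O ∧
    (π q₀, P q₀) ∈ O ∧ ContDiffOn ℝ ∞ κ O ∧
    (∀ x ∈ O, x.2 ∈ Q → ‖κ x‖ = 1 ∧ P (κ x) = x.2 ∧ π (κ x) = x.1) ∧
    ∀ᶠ q in 𝓝 q₀, ‖q‖ = 1 → κ (π q, P q) = q

namespace IsQuot

variable {n m : ℕ} {Q : Set E'} {P : E → E'} {Γ : Set (E ≃ₗᵢ[ℝ] E)} (hc : IsQuot Q P Γ)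
  {L : Set (E' × E')} {U : Set E'} {r : E' → E'}

include hc

theorem TQ_lift (hr : IsRet Q U r) (hL : L ⊆ Cot Q)
    {q : E} (hq : ‖q‖ = 1) {w : E' × E'} (hw : w ∈ L) (h1 : w.1 = P q) :
    TQ P r (q, pb P (q, w.2)) = w := by
  have h2 := (hL hw).2
  rw [h1] at h2
  rw [hc.TQ_pb hr hq h2]
  exact Prod.ext h1.symm rfl

theorem mem_lift (hr : IsRet Q U r) (hL : L ⊆ Cot Q) {z : E × E} :
    z ∈ lift P L ↔ ‖z.1‖ = 1 ∧ pb P (z.1, (TQ P r z).2) = z.2 ∧ TQ P r z ∈ L := by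
  constructor
  · rintro ⟨h1, w, hw, h2, h3⟩
    have h4 := hc.TQ_lift hr hL h1 hw h2
    rw [← h3] at h4
    have h4' : TQ P r z = w := h4
    refine ⟨h1, ?_, ?_⟩
    · rw [h4', h3]
    · rw [h4']
      exact hw
  · rintro ⟨h1, h2, h3⟩
    exact ⟨h1, _, h3, rfl, h2.symm⟩

theorem lift_orth {z : E × E} (hz : z ∈ lift P L) : inner ℝ z.1 z.2 = (0 : ℝ) := by
  obtain ⟨h1, w, hw, h2, h3⟩ := hz
  rw [h3, in_pb h1]

theorem lift_compact (hL : IsCompact L) : IsCompact (lift P L) := by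
  have h1 : lift P L = (fun x : E × (E' × E') => (x.1, pb P (x.1, x.2.2))) ''
      {x | x ∈ Sph E ×ˢ L ∧ x.2.1 = P x.1} := by
    ext z
    constructor
    · rintro ⟨h1, w, hw, h2, h3⟩
      exact ⟨(z.1, w), ⟨⟨mem_Sph.2 h1, hw⟩, h2⟩, Prod.ext rfl h3.symm⟩
    · rintro ⟨x, ⟨⟨h1, h2⟩, h3⟩, rfl⟩
      exact ⟨mem_Sph.1 h1, x.2, h2, h3, rfl⟩
  rw [h1]
  have hcl : IsClosed {x : E × (E' × E') | x.2.1 = P x.1} :=
    isClosed_eq (by fun_prop) (hc.smooth.continuous.comp continuous_fst)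
  have h2 : IsCompact {x : E × (E' × E') | x ∈ Sph E ×ˢ L ∧ x.2.1 = P x.1} :=
    ((isCompact_sphere (0 : E) 1).prod hL).inter_right hcl
  refine h2.image ?_
  exact continuous_fst.prodMk ((pb_smooth hc.smooth).continuous.comp
    (continuous_fst.prodMk (continuous_snd.comp continuous_snd)))

/-- the preimage is a submanifold -/
theorem lift_sub (hk : ∀ q : E, ‖q‖ = 1 → HasKappa n m Q P q) (hr : IsRet Q U r) (hL : L ⊆ Cot Q)
    (hLm : IsSubmanifold m L) (hLc : IsCompact L) : IsSubmanifold n (lift P L) := by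
  intro z₀ hz₀
  obtain ⟨h1, h2, hw₀⟩ := (hc.mem_lift hr hL).1 hz₀
  obtain ⟨UL, ρ, hρ, dρ⟩ := exists_ret hLm hLc
  obtain ⟨V, π, κ, O, hdV, hπ, hV, hOo, hO0, hκs, hκ1, hκ2⟩ := hk z₀.1 h1
  set w₀ := TQ P r z₀ with hw₀d
  have hw1 : w₀.1 = P z₀.1 := rfl
  set x₀ : V := π z₀.1 with hx₀
  set R : V × (E' × E') → E × E := fun x => (κ (x.1, x.2.1), pb P (κ (x.1, x.2.1), x.2.2)) with hR
  set O' : Set (V × (E' × E')) := (fun x : V × (E' × E') => (x.1, x.2.1)) ⁻¹' O with hO'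
  have hRo : IsOpen O' := hOo.preimage (by fun_prop)
  have hRm : (x₀, w₀) ∈ O' := hO0
  have hRs : ContDiffOn ℝ ∞ R O' := by
    have h3 : ContDiffOn ℝ ∞ (fun x : V × (E' × E') => κ (x.1, x.2.1)) O' :=
      hκs.comp (contDiff_fst.prodMk (contDiff_fst.comp contDiff_snd)).contDiffOn fun w hw => hw
    exact h3.prodMk ((pb_smooth hc.smooth).comp_contDiffOn
      (h3.prodMk (contDiff_snd.comp contDiff_snd).contDiffOn))
  have hRd : HasFDerivAt R (fderiv ℝ R (x₀, w₀)) (x₀, w₀) :=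
    ((hRs.contDiffAt (hRo.mem_nhds hRm)).differentiableAt (by simp)).hasFDerivAt
  have hTd : HasFDerivAt (TQ P r) (fderiv ℝ (TQ P r) z₀) z₀ :=
    ((hc.TQ_smooth hr (hc.bm_det hr h1)).differentiableAt (by simp)).hasFDerivAt
  have hTt : Tendsto (TQ P r) (𝓝 z₀) (𝓝 w₀) := (hc.TQ_smooth hr (hc.bm_det hr h1)).continuousAt
  have hπt : Tendsto (fun z : E × E => π z.1) (𝓝 z₀) (𝓝 x₀) := by
    have : Continuous fun z : E × E => π z.1 := π.continuous.comp continuous_fst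
    exact this.tendsto z₀
  have hρw : ρ w₀ = w₀ := hρ.fix w₀ hw₀
  have hρt : Tendsto ρ (𝓝 w₀) (𝓝 w₀) := by
    have := hρ.smooth.continuous.tendsto w₀
    rwa [hρw] at this
  -- `R` is an inverse
  have hTR : ∀ x ∈ O', x.2 ∈ L → R x ∈ lift P L ∧ TQ P r (R x) = x.2 ∧ π (R x).1 = x.1 := by
    intro x hx hw
    obtain ⟨h4, h5, h6⟩ := hκ1 _ hx (hL hw).1
    exact ⟨⟨h4, x.2, hw, h5.symm, rfl⟩, hc.TQ_lift hr hL h4 hw h5.symm, h6⟩
  have hRT : ∀ᶠ z in 𝓝 z₀, z ∈ lift P L → R (π z.1, TQ P r z) = z := by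
    filter_upwards [(continuous_fst.tendsto z₀).eventually hκ2] with z h3 hz
    obtain ⟨h4, h5, h6⟩ := (hc.mem_lift hr hL).1 hz
    have h7 : κ (π z.1, P z.1) = z.1 := h3 h4
    show (κ (π z.1, P z.1), pb P (κ (π z.1, P z.1), (TQ P r z).2)) = z
    rw [h7, h5]
  have hR0 : R (x₀, w₀) = z₀ := hRT.self_of_nhds hz₀
  -- the local retraction
  have hcs : ContDiffOn ℝ ∞ (fun z => R (π z.1, ρ (TQ P r z)))
      ({z | (bm P r z.1).det ≠ 0} ∩ (fun z => (π z.1, ρ (TQ P r z))) ⁻¹' O') := by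
    have h3 : ContDiffOn ℝ ∞ (fun z : E × E => (π z.1, ρ (TQ P r z)))
        {z | (bm P r z.1).det ≠ 0} :=
      (π.contDiff.comp contDiff_fst).contDiffOn.prodMk (hρ.smooth.comp_contDiffOn
        fun z hz => (hc.TQ_smooth hr hz).contDiffWithinAt)
    exact hRs.comp (h3.mono inter_subset_left) fun z hz => hz.2
  have hnb : ({z | (bm P r z.1).det ≠ 0} ∩ (fun z => (π z.1, ρ (TQ P r z))) ⁻¹' O') ∈ 𝓝 z₀ := by
    refine inter_mem ((hc.isOpen_det hr).mem_nhds (hc.bm_det hr h1)) ?_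
    exact (hπt.prodMk_nhds (hρt.comp hTt)) (hRo.mem_nhds hRm)
  obtain ⟨f, hf, hff⟩ := globalize hnb hcs
  have hloc : LocRet (lift P L) z₀ f := by
    refine ⟨hz₀, hf, ?_, ?_⟩
    · filter_upwards [hff, hnb, hTt.eventually (hρ.isOpen.mem_nhds (hρ.sub hw₀))] with z h3 h4 h5
      rw [h3]
      exact (hTR _ h4.2 (hρ.maps _ h5)).1
    · filter_upwards [hff, hRT] with z h3 h4 hz
      rw [h3]
      beta_reduce
      rw [hρ.fix _ ((hc.mem_lift hr hL).1 hz).2.2]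
      exact h4 hz
  -- the dimension
  set D : (E × E) →L[ℝ] V × (E' × E') :=
    (π.comp (ContinuousLinearMap.fst ℝ E E)).prod
      ((fderiv ℝ ρ w₀).comp (fderiv ℝ (TQ P r) z₀)) with hD
  have hfd : fderiv ℝ f z₀ = (fderiv ℝ R (x₀, w₀)).comp D := by
    have h3 : HasFDerivAt (fun z : E × E => (π z.1, ρ (TQ P r z))) D z₀ := by
      have h4 : HasFDerivAt (fun z => ρ (TQ P r z))
          ((fderiv ℝ ρ w₀).comp (fderiv ℝ (TQ P r) z₀)) z₀ := (hρ.hasFDerivAt w₀).comp z₀ hTd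
      exact (π.hasFDerivAt.comp z₀ hasFDerivAt_fst).prodMk h4
    have h4 : HasFDerivAt R (fderiv ℝ R (x₀, w₀)) (π z₀.1, ρ (TQ P r z₀)) := by
      rw [← hw₀d, hρw]
      exact hRd
    exact ((h4.comp z₀ h3).congr_of_eventuallyEq hff).fderiv
  have hdim : Module.finrank ℝ (Tn f z₀) = n := by
    have hprod : Module.finrank ℝ (V × Tn ρ w₀) = n := by
      rw [Module.finrank_prod, dρ w₀ hw₀, hdV]
    refine le_antisymm ?_ ?_
    · rw [← hprod]
      set a : Tn f z₀ →ₗ[ℝ] V × Tn ρ w₀ :=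
        LinearMap.prod (((π.comp (ContinuousLinearMap.fst ℝ E E) : (E × E) →L[ℝ] V) :
            (E × E) →ₗ[ℝ] V).domRestrict (Tn f z₀))
          (LinearMap.codRestrict (Tn ρ w₀)
          ((((fderiv ℝ ρ w₀).comp (fderiv ℝ (TQ P r) z₀) : (E × E) →L[ℝ] (E' × E')) :
            (E × E) →ₗ[ℝ] (E' × E')).domRestrict (Tn f z₀))
          (fun v => hρ.fderiv_mem hw₀ _)) with ha
      refine LinearMap.finrank_le_finrank_of_injective (f := a) ?_
      rintro ⟨v, hv⟩ ⟨v', hv'⟩ hvv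
      have h3 : fderiv ℝ ρ w₀ (fderiv ℝ (TQ P r) z₀ v) = fderiv ℝ ρ w₀ (fderiv ℝ (TQ P r) z₀ v') :=
        congrArg (fun x => (x.2 : E' × E')) hvv
      have h3' : π v.1 = π v'.1 := congrArg Prod.fst hvv
      have h4 : fderiv ℝ f z₀ v = v := hv
      have h5 : fderiv ℝ f z₀ v' = v' := hv'
      rw [hfd] at h4 h5
      refine Subtype.ext ?_
      show v = v'
      rw [← h4, ← h5]
      have h6 : D v = D v' := Prod.ext h3' h3
      exact congrArg (fderiv ℝ R (x₀, w₀)) h6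
    · rw [← hprod]
      have hkey : ∀ (ν : V), ∀ u ∈ Tn ρ w₀, fderiv ℝ R (x₀, w₀) (ν, u) ∈ Tn f z₀ ∧
          fderiv ℝ (TQ P r) z₀ (fderiv ℝ R (x₀, w₀) (ν, u)) = u ∧
          π (fderiv ℝ R (x₀, w₀) (ν, u)).1 = ν := by
        intro ν u hu
        rw [← hρ.mem_Tan hw₀] at hu
        obtain ⟨c, hcs', hcL, hc0, hcd⟩ := hu
        have h3 : HasDerivAt c u 0 := by
          rw [← hcd]
          exact (hcs'.differentiable (by simp) 0).hasDerivAt
        have h3' : HasDerivAt (fun t : ℝ => x₀ + t • ν) ν 0 := by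
          simpa using ((hasDerivAt_id (0 : ℝ)).smul_const ν).const_add x₀
        have h3'' : HasDerivAt (fun t : ℝ => (x₀ + t • ν, c t)) (ν, u) 0 := h3'.prodMk h3
        have hct : Tendsto (fun t : ℝ => (x₀ + t • ν, c t)) (𝓝 0) (𝓝 (x₀, w₀)) := by
          have := h3''.continuousAt.tendsto
          simpa [hc0] using this
        have h4 : HasDerivAt (fun t => R (x₀ + t • ν, c t)) (fderiv ℝ R (x₀, w₀) (ν, u)) 0 := by
          have h5 : HasFDerivAt R (fderiv ℝ R (x₀, w₀)) (x₀ + (0 : ℝ) • ν, c 0) := by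
            rw [hc0, zero_smul, add_zero]
            exact hRd
          exact h5.comp_hasDerivAt 0 h3''
        have hRt : Tendsto (fun t => R (x₀ + t • ν, c t)) (𝓝 0) (𝓝 z₀) := by
          have := h4.continuousAt.tendsto
          rwa [hc0, zero_smul, add_zero, hR0] at this
        have hev := hct.eventually (hRo.mem_nhds hRm)
        refine ⟨?_, ?_, ?_⟩
        · have h5 : HasFDerivAt f (fderiv ℝ f z₀) (R (x₀ + (0 : ℝ) • ν, c 0)) := by
            rw [hc0, zero_smul, add_zero, hR0]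
            exact (hf.differentiable (by simp) z₀).hasFDerivAt
          have h6 := h5.comp_hasDerivAt 0 h4
          refine h6.unique (h4.congr_of_eventuallyEq ?_)
          filter_upwards [hev, hRt.eventually hloc.fix] with t h7 h8
          exact h8 (hTR _ h7 (hcL t)).1
        · have h5 : HasFDerivAt (TQ P r) (fderiv ℝ (TQ P r) z₀) (R (x₀ + (0 : ℝ) • ν, c 0)) := by
            rw [hc0, zero_smul, add_zero, hR0]
            exact hTd
          have h6 := h5.comp_hasDerivAt 0 h4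
          refine h6.unique (h3.congr_of_eventuallyEq ?_)
          filter_upwards [hev] with t h7
          exact (hTR _ h7 (hcL t)).2.1
        · have h6 : HasDerivAt (fun t => π (R (x₀ + t • ν, c t)).1)
              (π (fderiv ℝ R (x₀, w₀) (ν, u)).1) 0 := π.hasFDerivAt.comp_hasDerivAt 0 (dfst h4)
          refine h6.unique (h3'.congr_of_eventuallyEq ?_)
          filter_upwards [hev] with t h7
          exact (hTR _ h7 (hcL t)).2.2
      set b : V × Tn ρ w₀ →ₗ[ℝ] Tn f z₀ :=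
        LinearMap.codRestrict (Tn f z₀)
          ((((fderiv ℝ R (x₀, w₀) : (V × (E' × E')) →L[ℝ] (E × E)) :
            (V × (E' × E')) →ₗ[ℝ] (E × E))) ∘ₗ
            (LinearMap.prodMap LinearMap.id (Tn ρ w₀).subtype))
          (fun x => (hkey x.1 x.2.1 x.2.2).1) with hb
      refine LinearMap.finrank_le_finrank_of_injective (f := b) ?_
      rintro ⟨ν, ⟨u, hu⟩⟩ ⟨ν', ⟨u', hu'⟩⟩ huu
      have h3 : fderiv ℝ R (x₀, w₀) (ν, u) = fderiv ℝ R (x₀, w₀) (ν', u') := congrArg Subtype.val huu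
      have h4 : u = u' := by rw [← (hkey ν u hu).2.1, ← (hkey ν' u' hu').2.1, h3]
      have h5 : ν = ν' := by rw [← (hkey ν u hu).2.2, ← (hkey ν' u' hu').2.2, h3]
      subst h4 h5
      rfl
  obtain ⟨Pj, hPj, hPj2⟩ := exists_projection (Tn f z₀)
  obtain ⟨Θ, k1, k2, k3, k4, -, -⟩ := hloc.exists_chart hPj hPj2
  exact ⟨Θ, Tn f z₀, k1, k2, k3, hdim, k4⟩

/-- curves are mapped to curves -/
theorem TQ_curve (hr : IsRet Q U r) {c : ℝ → E × E} (hcs : ContDiff ℝ ∞ c)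
    (h : ∀ t, ‖(c t).1‖ = 1) : ContDiff ℝ ∞ fun t => TQ P r (c t) := by
  rw [contDiff_iff_contDiffAt]
  intro t
  exact (hc.TQ_smooth hr (hc.bm_det hr (h t))).comp t hcs.contDiffAt

theorem TQ_fst (hr : IsRet Q U r) {z v : E × E} (h1 : ‖z.1‖ = 1) :
    (fderiv ℝ (TQ P r) z v).1 = fderiv ℝ P z.1 v.1 := by
  have h5 : HasFDerivAt (fun z => (TQ P r z).1)
      ((ContinuousLinearMap.fst ℝ E' E').comp (fderiv ℝ (TQ P r) z)) z :=
    hasFDerivAt_fst.comp z
      ((hc.TQ_smooth hr (hc.bm_det hr h1)).differentiableAt (by simp)).hasFDerivAt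
  have h6 : HasFDerivAt (fun z : E × E => P z.1)
      ((fderiv ℝ P z.1).comp (ContinuousLinearMap.fst ℝ E E)) z :=
    ((hc.smooth.differentiable (by simp) z.1).hasFDerivAt).comp z hasFDerivAt_fst
  exact congrArg (fun C : (E × E) →L[ℝ] E' => C v) (h5.unique h6)

/-- the canonical one-forms -/
theorem TQ_lam (hr : IsRet Q U r) {z v : E × E} (h1 : ‖z.1‖ = 1)
    (h2 : pb P (z.1, (TQ P r z).2) = z.2) (h3 : inner ℝ z.1 v.1 = (0 : ℝ)) :
    (inner ℝ (TQ P r z).2 (fderiv ℝ (TQ P r) z v).1 : ℝ) = inner ℝ z.2 v.1 := by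
  have h5 := inner_pb (P := P) z.1 v.1 (TQ P r z).2
  rw [h2, pr_of_orth h3] at h5
  rw [hc.TQ_fst hr h1, ← h5]

/-- **The preimage of a closed exact Lagrangian is a closed exact Lagrangian.** -/
theorem lift_closed (hk : ∀ q : E, ‖q‖ = 1 → HasKappa n m Q P q) (hr : IsRet Q U r)
    (hL : IsClosedExactLagrangian m Q L) : IsClosedExactLagrangian n (Sph E) (lift P L) := by
  have hm := fun z : E × E => hc.mem_lift hr hL.sub (z := z)
  have hcomp := hc.lift_compact hL.compact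
  obtain ⟨f, hf, hex⟩ := hL.exact
  obtain ⟨f', hf', hff⟩ := glue hcomp.isClosed (fun z => f (TQ P r z)) (fun z hz =>
    ⟨{z | (bm P r z.1).det ≠ 0}, (hc.isOpen_det hr).mem_nhds (hc.bm_det hr ((hm z).1 hz).1),
      fun z => f (TQ P r z), hf.comp_contDiffOn fun y hy => (hc.TQ_smooth hr hy).contDiffWithinAt,
      fun y _ _ => rfl⟩)
  refine ⟨hc.lift_sub hk hr hL.sub hL.mfd hL.compact, hcomp, ?_, ?_, f', hf', ?_⟩
  · obtain ⟨w, hw⟩ := hL.nonempty
    obtain ⟨q, hq, hqw⟩ := hc.surj w.1 (hL.sub hw).1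
    exact ⟨(q, pb P (q, w.2)), hq, w, hw, hqw.symm, rfl⟩
  · intro z hz
    exact cot_sph.2 ⟨((hm z).1 hz).1, hc.lift_orth hz⟩
  · rintro z hz v ⟨c, hcs, hcL, hc0, hcd⟩
    have hcn : ∀ t, ‖(c t).1‖ = 1 := fun t => ((hm _).1 (hcL t)).1
    obtain ⟨h1, h2, h3⟩ := (hm z).1 hz
    have d1 : HasDerivAt c v 0 := by
      rw [← hcd]
      exact (hcs.differentiable (by simp) 0).hasDerivAt
    have d2 : HasDerivAt (fun t => TQ P r (c t)) (fderiv ℝ (TQ P r) z v) 0 := by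
      have h4 : HasFDerivAt (TQ P r) (fderiv ℝ (TQ P r) z) (c 0) := by
        rw [hc0]
        exact ((hc.TQ_smooth hr (hc.bm_det hr h1)).differentiableAt (by simp)).hasFDerivAt
      exact h4.comp_hasDerivAt 0 d1
    have h4 : fderiv ℝ (TQ P r) z v ∈ Tan L (TQ P r z) := by
      refine ⟨fun t => TQ P r (c t), hc.TQ_curve hr hcs hcn, fun t => ((hm _).1 (hcL t)).2.2, by
        beta_reduce
        rw [hc0], d2.deriv⟩
    have h5 := hex _ h3 _ h4
    have h6 : inner ℝ z.1 v.1 = (0 : ℝ) := by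
      refine (tan_sph h1).1 ⟨fun t => (c t).1, contDiff_fst.comp hcs, fun t => mem_Sph.2 (hcn t), by
        beta_reduce
        rw [hc0], ?_⟩
      exact (dfst d1).deriv
    have d3 : HasDerivAt (fun t => f' (c t)) (fderiv ℝ f' z v) 0 := by
      have h7 : HasFDerivAt f' (fderiv ℝ f' z) (c 0) := by
        rw [hc0]
        exact (hf'.differentiable (by simp) z).hasFDerivAt
      exact h7.comp_hasDerivAt 0 d1
    have d4 : HasDerivAt (fun t => f (TQ P r (c t)))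
        (fderiv ℝ f (TQ P r z) (fderiv ℝ (TQ P r) z v)) 0 := by
      have h7 : HasFDerivAt f (fderiv ℝ f (TQ P r z)) (TQ P r (c 0)) := by
        rw [hc0]
        exact (hf.differentiable (by simp) _).hasFDerivAt
      exact h7.comp_hasDerivAt 0 d2
    have h8 : (fun t => f' (c t)) = fun t => f (TQ P r (c t)) := funext fun t => hff _ (hcL t)
    rw [h8] at d3
    rw [d3.unique d4, h5]
    exact hc.TQ_lam hr h1 h2 h6

end IsQuot

end Vale.Agent.P220.R2.H57Q
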