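import Vale.Agent.P220.R2.H57Q.Defs
import Vale.Agent.P220.R2.H57Q.Desc
import Vale.Agent.P220.R2.H57Q.Kappa
import Vale.Agent.P220.R2.H180.U.Eqi
import Vale.Agent.P220.R2.H180.T.Sym

/-!
# Nearby Lagrangians over quotients of the sphere
-/

open Set Filter Topology
open scoped ContDiff

set_option linter.unusedSectionVars false

namespace Vale.Agent.P220.R2.H57Q

open H57 H180 H57S

variable {E : Type} [NormedAddCommGroup E] [InnerProductSpace ℝ E] [FiniteDimensional ℝ E]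
  {E' : Type} [NormedAddCommGroup E'] [InnerProductSpace ℝ E'] [FiniteDimensional ℝ E']

theorem IsSphereQuotient.isQuot {Q : Set E'} {P : E → E'} {Γ : Set (E ≃ₗᵢ[ℝ] E)}
    (h : IsSphereQuotient Q P Γ) : IsQuot Q P Γ where
  smooth := h.smooth
  maps := fun q hq => by
    rw [← h.image]
    exact ⟨q, mem_Sph.2 hq, rfl⟩
  surj := fun y hy => by
    rw [← h.image] at hy
    obtain ⟨q, hq, rfl⟩ := hy
    exact ⟨q, mem_Sph.1 hq, rfl⟩
  sub := fun q hq v hv => by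
    obtain ⟨u, hu, hu2⟩ := h.submersion q (mem_Sph.2 hq) v hv
    exact ⟨u, (tan_sph hq).1 hu, hu2⟩
  deck := fun x y hx hy hxy => (h.fibres x (mem_Sph.2 hx) y (mem_Sph.2 hy)).1 hxy
  inv := fun g hg x hx => ((h.fibres x (mem_Sph.2 hx) (g x)
    (mem_Sph.2 ((g.norm_map x).trans hx))).2 ⟨g, hg, rfl⟩).symm

theorem pullBack_eq (P : E → E') (L : Set (E' × E')) : PullBack P L = lift P L := by
  ext z
  constructor
  · rintro ⟨hz, w, hw, h1, h2⟩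
    obtain ⟨h3, h4⟩ := cot_sph.1 hz
    refine ⟨h3, w, hw, h1, ext_inner_right ℝ fun u => ?_⟩
    rw [inner_pb, ← h2 _ ((tan_sph h3).2 (in_pr h3 u)), H57S.pr, inner_sub_right, inner_smul_right,
      real_inner_comm z.1 z.2, h4, mul_zero, sub_zero]
  · rintro ⟨h3, w, hw, h1, h2⟩
    have h4 : inner ℝ z.1 z.2 = (0 : ℝ) := by rw [h2, in_pb h3]
    refine ⟨cot_sph.2 ⟨h3, h4⟩, w, hw, h1, fun v hv => ?_⟩
    rw [h2, inner_pb, pr_of_orth ((tan_sph h3).1 hv)]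

namespace IsQuot

variable {n m : ℕ} {Q : Set E'} {P : E → E'} {Γ : Set (E ≃ₗᵢ[ℝ] E)} (hc : IsQuot Q P Γ)
  {L : Set (E' × E')}

include hc

/-- the preimage is invariant -/
theorem lift_inv {g : E ≃ₗᵢ[ℝ] E} (hg : g ∈ Γ) : ∀ z ∈ lift P L, (g z.1, g z.2) ∈ lift P L := by
  rintro z ⟨h1, w, hw, h2, h3⟩
  refine ⟨(g.norm_map _).trans h1, w, hw, ?_, ?_⟩
  · show w.1 = P (g z.1)
    rw [hc.inv g hg _ h1, h2]
  · show g z.2 = pb P (g z.1, w.2)
    rw [hc.pb_g hg h1, h3]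

/-- **Main theorem, from the vanishing of the moments of the preimage.** -/
theorem main (hn : Module.finrank ℝ E = n + 1) (h2 : 2 ≤ n) (hQ : IsClosedManifold m Q)
    (K : Submodule ℝ E) (hK : ∀ g ∈ Γ, ∀ x ∈ K, g x ∈ K) (hL : IsClosedExactLagrangian m Q L)
    (hM : IsClosedExactLagrangian n (Sph E) (lift P L) →
      T.Mom K.starProjection (lift P L) ∧ T.Mom Kᗮ.starProjection (lift P L)) :
    HamIsotopicToZero Q L := by
  have hk : ∀ q : E, ‖q‖ = 1 → HasKappa n m Q P q := fun q hq => hc.hasKappa hn hQ hq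
  obtain ⟨U, r, hr, -⟩ := exists_ret hQ.sub hQ.compact
  have hL' := hc.lift_closed hk hr hL
  obtain ⟨hM1, hM2⟩ := hM hL'
  obtain ⟨ι, f, h, hor⟩ := T.exists_siso hn h2 K hL' hM1 hM2 Γ hK fun g hg => hc.lift_inv hg
  refine hc.descent hk hQ hL.sub
    ⟨h.hι, h.hf, h.norm, h.orth, h.inj, h.imm, h.ex, h.zero, h.one, h.eqv, h.eqf⟩
    fun s q v hq hv1 hv2 => ?_
  have hx := h.norm s q hq
  obtain ⟨γ, -, hγ0, hγd, hγ⟩ := hc.fibre_curve hk hx hv1 hv2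
  refine hor s q v hq hv1 γ hγ0 hγd ?_
  filter_upwards [hγ] with t ht
  exact hc.deck _ (γ t) hx ht.1 ht.2.symm

end IsQuot

/-- **Main theorem.** -/
theorem main {n m : ℕ} (hn : Module.finrank ℝ E = n + 1) (h2 : 2 ≤ n) {Q : Set E'}
    (hQ : IsClosedManifold m Q) {P : E → E'} {Γ : Set (E ≃ₗᵢ[ℝ] E)}
    (hP : IsSphereQuotient Q P Γ) (K : Submodule ℝ E) (hK : ∀ g ∈ Γ, ∀ x ∈ K, g x ∈ K)
    {L : Set (E' × E')} (hL : IsClosedExactLagrangian m Q L)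
    (h : (∀ z ∈ PullBack P L,
        ¬ LinearIndependent ℝ ![K.starProjection z.1, K.starProjection z.2] ∧
        ¬ LinearIndependent ℝ ![Kᗮ.starProjection z.1, Kᗮ.starProjection z.2]) ∨
      ∀ q ∈ Metric.sphere (0 : E) 1, ∀ v w : E, ((v ∈ K ∧ w ∈ K) ∨ (v ∈ Kᗮ ∧ w ∈ Kᗮ)) →
        ∃ A : E →L[ℝ] E, (∀ x, (inner ℝ (A x) x : ℝ) = 0) ∧
          A q = (inner ℝ v q : ℝ) • w - (inner ℝ w q : ℝ) • v ∧
          ∀ z ∈ PullBack P L, (A z.1, A z.2) ∈ Tan (PullBack P L) z) :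
    HamIsotopicToZero Q L := by
  rw [pullBack_eq] at h
  refine hP.isQuot.main hn h2 hQ K hK hL fun hL' => ?_
  rcases h with h | h
  · exact ⟨T.mom_of_dep K fun z hz => (h z hz).1, T.mom_of_dep Kᗮ fun z hz => (h z hz).2⟩
  · exact ⟨T.mom_of_sym K hL' fun q hq v hv w hw => h q hq v w (Or.inl ⟨hv, hw⟩),
      T.mom_of_sym Kᗮ hL' fun q hq v hv w hw => h q hq v w (Or.inr ⟨hv, hw⟩)⟩

end Vale.Agent.P220.R2.H57Q
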